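import Mathlib.RingTheory.MvPowerSeries.NoZeroDivisors
import Mathlib.RingTheory.MvPowerSeries.Inverse
import Mathlib.RingTheory.MvPowerSeries.Substitution
import Mathlib.RingTheory.Polynomial.Basic
import Mathlib.Order.Filter.Ultrafilter.Basic
import Mathlib.Algebra.MvPolynomial.Funext
import Mathlib.RingTheory.MvPowerSeries.Rename
import Mathlib.RingTheory.Ideal.Quotient.Noetherian
import Mathlib.Algebra.CharZero.Infinite
import Mathlib.Tactic.LinearCombination

/-!
# P283M, block U: algebraic leaves of the monomialisation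
-/

open MvPowerSeries Filter

noncomputable section

namespace Vale.Agent.P283M.U

section mon

variable {σ A : Type*} [CommRing A]

theorem X_dvd_iff_ord [DecidableEq σ] (j : σ) (F : MvPowerSeries σ A) :
    X j ∣ F ↔ 1 ≤ F.weightedOrder (Pi.single j 1) := by
  have hw : ∀ d : σ →₀ ℕ, Finsupp.weight (Pi.single j 1 : σ → ℕ) d = d j := fun d => by
    rw [Finsupp.weight_apply, Finsupp.sum, Finset.sum_eq_single j]
    · simp
    · intro b _ hb; simp [hb]
    · intro h; simp [Finsupp.notMem_support_iff.1 h]
  rw [X_dvd_iff]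
  constructor
  · intro h
    have := nat_le_weightedOrder (f := F) (Pi.single j 1) (n := 1) fun d hd => h d (by
      rw [hw] at hd; omega)
    simpa using this
  · intro h m hm
    refine coeff_eq_zero_of_lt_weightedOrder (Pi.single j 1) (lt_of_lt_of_le ?_ h)
    rw [hw, hm]; simp

theorem X_dvd_mul [IsDomain A] (j : σ) {G H : MvPowerSeries σ A} (h : X j ∣ G * H) :
    X j ∣ G ∨ X j ∣ H := by
  classical
  rw [X_dvd_iff_ord, weightedOrder_mul] at h
  rw [X_dvd_iff_ord, X_dvd_iff_ord]
  by_contra hc
  rw [not_or, not_le, not_le, Order.lt_one_iff, Order.lt_one_iff] at hc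
  rw [hc.1, hc.2] at h
  simp at h

theorem monomial_add_single (μ : σ →₀ ℕ) (j : σ) :
    (monomial (μ + Finsupp.single j 1) (1 : A)) = X j * monomial μ 1 := by
  rw [X_def, monomial_mul_monomial, one_mul, add_comm]

/-- a factor of a unit times a monomial is a unit times a monomial -/
theorem mon_of_mul [IsDomain A] {G H u : MvPowerSeries σ A} {μ : σ →₀ ℕ} (hu : IsUnit u)
    (h : G * H = u * monomial μ 1) : ∃ v ν, IsUnit v ∧ G = v * monomial ν 1 := by
  classical
  induction hn : Finsupp.degree μ using Nat.strong_induction_on generalizing G H μ with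
  | _ n ih =>
    by_cases h0 : μ = 0
    · subst h0
      refine ⟨G, 0, ?_, by simp⟩
      have : IsUnit (G * H) := by rw [h]; simpa using hu
      exact isUnit_of_mul_isUnit_left this
    · obtain ⟨j, hj⟩ : ∃ j, μ j ≠ 0 := by
        by_contra hc
        push Not at hc
        exact h0 (Finsupp.ext hc)
      obtain ⟨μ', rfl⟩ : ∃ μ', μ = μ' + Finsupp.single j 1 :=
        ⟨μ - Finsupp.single j 1, (tsub_add_cancel_of_le (Finsupp.single_le_iff.2
          (Nat.one_le_iff_ne_zero.2 hj))).symm⟩
      have hd : Finsupp.degree μ' < n := by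
        rw [← hn, map_add, Finsupp.degree_single]; omega
      rw [monomial_add_single] at h
      have hX : (X j : MvPowerSeries σ A) ≠ 0 := nonZeroDivisors.ne_zero X_mem_nonzeroDivisors
      have hdv : X j ∣ G * H := ⟨u * monomial μ' 1, by rw [h]; ring⟩
      rcases X_dvd_mul j hdv with ⟨G', rfl⟩ | ⟨H', rfl⟩
      · obtain ⟨v, ν, hv, e⟩ := ih _ hd (G := G') (H := H) (μ := μ')
          (mul_left_cancel₀ hX (by linear_combination h)) rfl
        exact ⟨v, ν + Finsupp.single j 1, hv, by rw [monomial_add_single, e]; ring⟩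
      · exact ih _ hd (G := G) (H := H') (μ := μ')
          (mul_left_cancel₀ hX (by linear_combination h)) rfl

theorem coeff_unit_mon [Nontrivial A] {u : MvPowerSeries σ A} (hu : IsUnit u) (a : σ →₀ ℕ) :
    coeff a (u * monomial a 1) ≠ 0 := by
  classical
  rw [coeff_mul_monomial, if_pos le_rfl, tsub_self, mul_one, coeff_zero_eq_constantCoeff_apply]
  exact (isUnit_constantCoeff _ hu).ne_zero

theorem le_of_coeff_mon {u : MvPowerSeries σ A} {a d : σ →₀ ℕ}
    (h : coeff d (u * monomial a 1) ≠ 0) : a ≤ d := by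
  classical
  by_contra hc
  rw [coeff_mul_monomial, if_neg hc] at h
  exact h rfl

/-- if two monomials and their difference are monomials up to units, one divides the other -/
theorem diff_le [Nontrivial A] {u v w : MvPowerSeries σ A} {a b c : σ →₀ ℕ} (hu : IsUnit u)
    (hv : IsUnit v) (hw : IsUnit w)
    (h : u * monomial a 1 - v * monomial b 1 = w * monomial c 1) : a ≤ b ∨ b ≤ a := by
  by_contra hc
  rw [not_or] at hc
  have ha : c ≤ a := by
    refine le_of_coeff_mon (u := w) ?_
    have h0 : coeff a (v * monomial b 1) = 0 := by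
      by_contra h'; exact hc.2 (le_of_coeff_mon h')
    rw [← h, map_sub, h0, sub_zero]
    exact coeff_unit_mon hu a
  have hb : c ≤ b := by
    refine le_of_coeff_mon (u := w) ?_
    have h0 : coeff b (u * monomial a 1) = 0 := by
      by_contra h'; exact hc.1 (le_of_coeff_mon h')
    rw [← h, map_sub, h0, zero_sub, neg_ne_zero]
    exact coeff_unit_mon hv b
  have h1 := coeff_unit_mon hw c
  rw [← h, map_sub] at h1
  by_cases h2 : coeff c (u * monomial a 1) = 0
  · rw [h2, zero_sub, neg_ne_zero] at h1
    exact hc.2 ((le_of_coeff_mon h1).trans ha)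
  · exact hc.1 ((le_of_coeff_mon h2).trans hb)

/-- two ways of writing a series as a unit times a monomial have the same exponent -/
theorem mon_uniq [Nontrivial A] {u v : MvPowerSeries σ A} {a b : σ →₀ ℕ} (hu : IsUnit u)
    (hv : IsUnit v) (h : u * monomial a 1 = v * monomial b 1) : a = b :=
  le_antisymm (le_of_coeff_mon (u := u) (h ▸ coeff_unit_mon hv b))
    (le_of_coeff_mon (u := v) (h ▸ coeff_unit_mon hu a))

end mon

section adj

variable {ι A C : Type*} [CommRing A] [CommRing C]

/-- a ring with generic points in a domain is a domain -/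
theorem isDomain_of_gen [IsDomain C] (𝒰 : Ultrafilter ι) (s : ι → A →+* C)
    (gen : ∀ a, (∀ᶠ i in (𝒰 : Filter ι), s i a = 0) → a = 0) : IsDomain A := by
  have : Nontrivial A := by
    refine ⟨0, 1, fun h => ?_⟩
    obtain ⟨i⟩ : Nonempty ι := Filter.nonempty_of_neBot (𝒰 : Filter ι)
    have := congrArg (s i) h
    simp at this
  have : NoZeroDivisors A := ⟨fun {a b} h => by
    have h1 : ∀ᶠ i in (𝒰 : Filter ι), s i a = 0 ∨ s i b = 0 :=
      Eventually.of_forall fun i => mul_eq_zero.1 (by rw [← map_mul, h, map_zero])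
    rcases Ultrafilter.eventually_or.1 h1 with h2 | h2
    · exact Or.inl (gen _ h2)
    · exact Or.inr (gen _ h2)⟩
  exact NoZeroDivisors.to_isDomain A

/-- the elements killed by most points -/
def nul (l : Filter ι) (s : ι → A →+* C) : Ideal A where
  carrier := {a | ∀ᶠ i in l, s i a = 0}
  zero_mem' := Eventually.of_forall fun i => map_zero _
  add_mem' := fun {a b} ha hb => (Eventually.and ha hb).mono fun i h => by
    rw [map_add, h.1, h.2, add_zero]
  smul_mem' := fun c a ha => Eventually.mono ha fun i h => by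
    rw [smul_eq_mul, map_mul, h, mul_zero]

/-- most points of a noetherian ring factor through the quotient by `nul` -/
theorem exists_quot [IsNoetherianRing A] (l : Filter ι) [l.NeBot] (s : ι → A →+* C) :
    ∃ s' : ι → (A ⧸ nul l s) →+* C, (∀ a, (∀ᶠ i in l, s' i a = 0) → a = 0) ∧
      ∀ᶠ i in l, (s' i).comp (Ideal.Quotient.mk _) = s i := by
  classical
  obtain ⟨T, hT⟩ := (IsNoetherian.noetherian (nul l s) : (nul l s).FG)
  have h1 : ∀ᶠ i in l, ∀ a ∈ nul l s, s i a = 0 := by
    have h2 : ∀ᶠ i in l, ∀ a ∈ T, s i a = 0 :=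
      (eventually_all_finset T).2 fun a ha => (hT ▸ Submodule.subset_span ha : a ∈ nul l s)
    refine h2.mono fun i hi a ha => ?_
    have : nul l s ≤ RingHom.ker (s i) := by
      rw [← hT, Submodule.span_le]; exact fun a ha => hi a ha
    exact this ha
  obtain ⟨i0, h0⟩ := h1.exists
  let s' : ι → (A ⧸ nul l s) →+* C := fun i =>
    if h : ∀ a ∈ nul l s, s i a = 0 then Ideal.Quotient.lift _ (s i) h
    else Ideal.Quotient.lift _ (s i0) h0
  have h3 : ∀ᶠ i in l, (s' i).comp (Ideal.Quotient.mk _) = s i := h1.mono fun i hi => by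
    ext a; simp only [s', dif_pos hi, RingHom.comp_apply, Ideal.Quotient.lift_mk]
  refine ⟨s', fun a ha => ?_, h3⟩
  obtain ⟨a, rfl⟩ := Ideal.Quotient.mk_surjective a
  refine Ideal.Quotient.eq_zero_iff_mem.2 ((ha.and h3).mono fun i hi => ?_)
  rw [← hi.2]; exact hi.1

end adj

/-- **adjoining a constant** along a filter -/
theorem adj {ι C : Type*} {A : Type} [CommRing A] [CommRing C] [IsNoetherianRing A]
    (l : Filter ι) [l.NeBot] (s : ι → A →+* C) (c : ι → C) :
    ∃ (A' : Type) (_ : CommRing A') (_ : IsNoetherianRing A') (j : A →+* A') (s' : ι → A' →+* C)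
      (γ : A'), (∀ a, (∀ᶠ i in l, s' i a = 0) → a = 0) ∧
      ∀ᶠ i in l, (s' i).comp j = s i ∧ s' i γ = c i := by
  obtain ⟨s', h1, h2⟩ := exists_quot l fun i => Polynomial.eval₂RingHom (s i) (c i)
  refine ⟨_, inferInstance, inferInstance, (Ideal.Quotient.mk _).comp Polynomial.C, s',
    Ideal.Quotient.mk _ Polynomial.X, h1, h2.mono fun i hi => ⟨?_, ?_⟩⟩
  · rw [← RingHom.comp_assoc, hi]; ext a; simp
  · have := RingHom.congr_fun hi Polynomial.X
    simpa using this

/-- the structure map between rings with generic points is injective -/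
theorem inj_of_gen {ι A A' C : Type*} [CommRing A] [CommRing A'] [CommRing C] {l : Filter ι}
    {s : ι → A →+* C} {s' : ι → A' →+* C} {j : A →+* A'}
    (gen : ∀ a, (∀ᶠ i in l, s i a = 0) → a = 0) (h : ∀ᶠ i in l, (s' i).comp j = s i) :
    Function.Injective j := by
  rw [injective_iff_map_eq_zero]
  intro a ha
  refine gen a (h.mono fun i hi => ?_)
  rw [← hi, RingHom.comp_apply, ha, map_zero]

/-- **localisation**: a nonzero element becomes a unit -/
theorem adj_unit {ι C : Type*} {A : Type} [CommRing A] [Field C] [IsNoetherianRing A]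
    (𝒰 : Ultrafilter ι) (s : ι → A →+* C)
    (gen : ∀ a, (∀ᶠ i in (𝒰 : Filter ι), s i a = 0) → a = 0) {a : A} (ha : a ≠ 0) :
    ∃ (A' : Type) (_ : CommRing A') (_ : IsNoetherianRing A') (j : A →+* A') (s' : ι → A' →+* C),
      (∀ a, (∀ᶠ i in (𝒰 : Filter ι), s' i a = 0) → a = 0) ∧ IsUnit (j a) ∧
      ∀ᶠ i in (𝒰 : Filter ι), (s' i).comp j = s i := by
  obtain ⟨A', _, _, j, s', γ, h1, h2⟩ := adj (𝒰 : Filter ι) s fun i => (s i a)⁻¹
  refine ⟨A', inferInstance, inferInstance, j, s', h1, ?_, h2.mono fun i hi => hi.1⟩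
  have h3 : ∀ᶠ i in (𝒰 : Filter ι), s i a ≠ 0 :=
    Ultrafilter.eventually_not.2 fun h => ha (gen a h)
  refine IsUnit.of_mul_eq_one γ (sub_eq_zero.1 (h1 _ ((h2.and h3).mono fun i hi => ?_)))
  have e : s' i (j a) = s i a := RingHom.congr_fun hi.1.1 a
  rw [map_sub, map_mul, map_one, e, hi.1.2, mul_inv_cancel₀ hi.2, sub_self]

section shear

variable {σ A : Type*} [CommRing A]

/-- the shear `z_j ↦ z_j + lam_j z_N` -/
def shr (lam : σ → A) : Option σ → MvPowerSeries (Option σ) A
  | none => X none
  | some j => X (some j) + C (lam j) * X none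

theorem cc_shr (lam : σ → A) (o : Option σ) : constantCoeff (shr lam o) = 0 := by
  cases o <;> simp [shr]

theorem coeff_prod_shr [Fintype σ] (lam : σ → A) (m : Option σ →₀ ℕ) (d : ℕ) :
    coeff (Finsupp.single none d) (m.prod fun o e => shr lam o ^ e) =
      if ∑ o, m o = d then ∏ j, lam j ^ m (some j) else 0 := by
  classical
  let e : Unit ↪ Option σ := ⟨fun _ => none, fun _ _ _ => rfl⟩
  have h0 : (Finsupp.single none d : Option σ →₀ ℕ) =
      Finsupp.embDomain e (Finsupp.single () d) := by rw [Finsupp.embDomain_single]; rfl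
  have h1 : killCompl (R := A) e (X none) = X () := killCompl_X (e := e) ()
  have h2 : ∀ j, killCompl (R := A) e (X (some j)) = 0 := fun j =>
    killCompl_X_eq_zero (by rintro ⟨_, h⟩; cases h)
  rw [h0, ← coeff_killCompl, Finsupp.prod_fintype _ _ (by simp), map_prod, Fintype.prod_option,
    Fintype.sum_option]
  simp only [shr, map_pow, map_add, map_mul, h1, h2, killCompl_C, zero_add, mul_pow,
    Finset.prod_mul_distrib, Finset.prod_pow_eq_pow_sum]
  rw [mul_left_comm, ← pow_add]
  simp only [← map_pow, ← map_prod]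
  rw [coeff_C_mul, coeff_X_pow]
  simp only [eq_comm (a := d), mul_ite, mul_one, mul_zero,
    (Finsupp.single_injective ()).eq_iff]

/-- **shear**: a nonzero series becomes regular in the last variable -/
theorem shear [Finite σ] [IsDomain A] [CharZero A] {F : MvPowerSeries (Option σ) A}
    (hF : F ≠ 0) : ∃ (lam : σ → A) (e : ℕ),
      coeff (Finsupp.single none e) (F.subst (shr lam)) ≠ 0 := by
  classical
  have := Fintype.ofFinite σ
  obtain ⟨m0, h0⟩ : ∃ m, coeff m F ≠ 0 := by
    by_contra hc
    push Not at hc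
    exact hF (MvPowerSeries.ext fun m => by rw [hc m, map_zero])
  set d := ∑ o, m0 o with hd
  set T := Finset.finsuppAntidiag (Finset.univ : Finset (Option σ)) d with hT
  have hm : ∀ m, m ∈ T ↔ ∑ o, m o = d := fun m => by simp [hT]
  set Q : MvPolynomial σ A := ∑ m ∈ T, MvPolynomial.monomial m.some (coeff m F) with hQ
  have hQ0 : Q ≠ 0 := by
    intro h
    have h1 := congrArg (MvPolynomial.coeff m0.some) h
    rw [hQ, MvPolynomial.coeff_sum, Finset.sum_eq_single m0] at h1
    · simp [h0] at h1
    · intro m hmT hne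
      rw [MvPolynomial.coeff_monomial, if_neg]
      intro h2
      have h3 : ∀ j, m (some j) = m0 (some j) := fun j => by
        simpa using DFunLike.congr_fun h2 j
      have h4 := (hm m).1 hmT
      rw [hd, Fintype.sum_option, Fintype.sum_option] at h4
      simp only [h3, add_left_inj] at h4
      exact hne (Finsupp.ext fun o => by cases o; exacts [h4, h3 _])
    · intro h2; exact absurd ((hm m0).2 rfl) h2
  obtain ⟨lam, hl⟩ : ∃ lam, MvPolynomial.eval lam Q ≠ 0 := by
    by_contra hc
    push Not at hc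
    exact hQ0 (MvPolynomial.funext fun x => by rw [hc x, map_zero])
  refine ⟨lam, d, ?_⟩
  rw [coeff_subst (hasSubst_of_constantCoeff_zero (cc_shr lam)),
    finsum_eq_sum_of_support_subset (s := T)]
  · convert hl using 1
    rw [hQ, map_sum]
    refine Finset.sum_congr rfl fun m hmT => ?_
    rw [coeff_prod_shr, if_pos ((hm m).1 hmT), MvPolynomial.eval_monomial,
      Finsupp.prod_fintype _ _ (by simp), smul_eq_mul]
    simp
  · intro m hm0
    by_contra hc
    rw [Function.mem_support, coeff_prod_shr, if_neg (fun h => hc ((hm m).2 h)), smul_zero] at hm0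
    exact hm0 rfl

end shear

end Vale.Agent.P283M.U
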